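import Vale.Agent.P248.H656.EqCone
import Vale.Agent.P248.H432.Class
import Vale.Agent.P254.Bdl.B12
import Vale.Agent.P254.Bdl.B20

/-!
P248 (helper656): transfer of the equality case.  If `NiceDDL 0 N` (the sharp slicing inequality)
holds in all dimensions and equality in the slicing inequality characterises simplices (P254), then
Q2 of P248 holds with its equality case.
-/

open MeasureTheory Set Matrix Filter Topology

namespace Vale.Agent.P248.H656

open Vale.Agent.P248.NS Vale.Agent.P248.Cmp
open Vale.Agent.P254.R304 (covF limDens cone coneDens)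

variable {n : ℕ}

/-- the point `(1, 0)` -/
def e0 (n : ℕ) : Fin (n + 1) → ℝ := Fin.cons 1 0

theorem cov_cone_eq {K : Set (Fin n → ℝ)} (hK : Vale.Agent.P254.IsConvexBody K) :
    cov (cone K) (Fin.cons 1 0) = Vale.Agent.P254.K468.covF (Vale.Agent.P254.K468.coneF K) := by
  obtain ⟨M, a, hg⟩ : ∃ M a, Vale.Agent.P254.R304.Good (coneDens K) M a := by
    obtain ⟨a, ha, hdec⟩ := Vale.Agent.P254.R304.cone_decay hK.2.1
    refine ⟨Real.exp 0, a, ?_⟩
    rw [Vale.Agent.P254.R304.coneDens_eq]
    exact Vale.Agent.P254.R304.good_limDens Matrix.PosSemidef.zero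
      (Vale.Agent.P254.R304.isClosed_cone hK.2.1)
      (Vale.Agent.P254.R304.cone_interior hK.2.2) ha hdec
  rw [Vale.Agent.P254.R304.covF_congr Vale.Agent.P254.R304.coneF_ae, hg.covF_eq,
    Vale.Agent.P254.R304.coneDens_eq]
  have e : -(Fin.cons 1 0 : Fin (n + 1) → ℝ) = Vale.Agent.P254.R304.mc n := by
    unfold Vale.Agent.P254.R304.mc
    ext i
    refine Fin.cases ?_ (fun j => ?_) i
    · simp
    · simp
  unfold cov
  rw [e]

/-- equality in the volume product inequality (at some centre) gives equality in the slicing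
inequality -/
theorem ratio_eq_of_eq (hNice : Vale.Agent.P254.X.Loss.NiceDDL 0 (n + 1))
    {K : Set (Fin n → ℝ)} (hK : Vale.Agent.P254.IsConvexBody K) {z : Fin n → ℝ}
    (hz : z ∈ interior K)
    (heq : (volume K).toReal * (volume (NS.polarP K z)).toReal =
      ((n : ℝ) + 1) ^ (n + 1) / (n.factorial : ℝ) ^ 2) :
    (Vale.Agent.P254.covMatrix K).det / (volume K).toReal ^ 2 =
      (Vale.Agent.P254.covMatrix (Vale.Agent.P254.stdS n)).det /
        (volume (Vale.Agent.P254.stdS n)).toReal ^ 2 := by
  obtain ⟨h1, h2, h3, h4, h5⟩ := T9.stmtCone n K hK z hz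
  have e : (Fin.cons 1 z : Fin (n + 1) → ℝ) ⬝ᵥ (Fin.cons 1 0 : Fin (n + 1) → ℝ) = 1 := by
    unfold dotProduct
    rw [Fin.sum_univ_succ]
    simp
  have hf : (0 : ℝ) < (n.factorial : ℝ) := by positivity
  have h := det_eq_of_eq (Nat.succ_pos n) hNice h1 h3 h2 (by
    rw [h4, h5, e, one_pow, mul_one]
    push_cast
    calc _ = (n.factorial : ℝ) ^ 2 * ((volume K).toReal * (volume (NS.polarP K z)).toReal) := by
          ring
      _ = _ := by
          rw [heq]
          field_simp)
  have hV := Vale.Agent.P254.K468.volume_pos_of_body hK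
  rw [h4, cov_cone_eq hK, Vale.Agent.P254.K468.det_cov_cone hK.2.1 hV.ne'] at h
  rw [Vale.Agent.P254.K468.ratio_stdS, div_eq_div_iff (by positivity) (by positivity)]
  nlinarith

theorem isoConst_eq_of_eq (hNice : Vale.Agent.P254.X.Loss.NiceDDL 0 (n + 1))
    {K S : Set (Fin n → ℝ)} (hK : Vale.Agent.P254.IsConvexBody K)
    (hS : Vale.Agent.P254.IsSimplex S) {z : Fin n → ℝ}
    (hz : z ∈ interior K)
    (heq : (volume K).toReal * (volume (NS.polarP K z)).toReal =
      ((n : ℝ) + 1) ^ (n + 1) / (n.factorial : ℝ) ^ 2) :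
    Vale.Agent.P254.isoConst K = Vale.Agent.P254.isoConst S := by
  rw [Vale.Agent.P254.isoConst_simplex hS]
  unfold Vale.Agent.P254.isoConst
  rw [ratio_eq_of_eq hNice hK hz heq]

open Vale.Agent.P248.H432 (E sb vp volumeProduct_eq_vp CB_frame simplexVal simplexVal_pos)

/-- coordinates of a body -/
noncomputable def co {n : ℕ} (K : Set (E n)) : Set (Fin n → ℝ) := frame 0 (sb n) ⁻¹' K

theorem co_body {K : Set (E n)} (hK : IsConvexBody K) : Vale.Agent.P254.IsConvexBody (co K) := by
  have h := CB_frame hK 0 (sb n)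
  exact ⟨h.cvx, h.cpt, h.ne⟩

theorem polarP_eq (S : Set (Fin n → ℝ)) (z : Fin n → ℝ) :
    NS.polarP S z = Vale.Agent.P248.polarP S z := by
  ext y
  unfold NS.polarP Vale.Agent.P248.polarP dotProduct
  simp only [mem_ofPred_eq, Pi.sub_apply, mul_comm]

theorem simplex_of_co {K : Set (E n)} (h : Vale.Agent.P254.IsSimplex (co K)) : IsSimplex K := by
  obtain ⟨v, hv, he⟩ := h
  let L : (Fin n → ℝ) ≃ₗ[ℝ] E n := (sb n).equivFun.symm
  have hL : ∀ u, frame 0 (sb n) u = L u := fun u => by
    unfold frame
    rw [zero_add]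
  refine ⟨fun i => L (v i), ?_, ?_⟩
  · exact hv.map' L.toLinearMap.toAffineMap L.injective
  · have h1 : K = L '' co K := by
      ext x
      constructor
      · intro hx
        refine ⟨L.symm x, ?_, L.apply_symm_apply x⟩
        show frame 0 (sb n) (L.symm x) ∈ K
        rw [hL, L.apply_symm_apply]
        exact hx
      · rintro ⟨u, hu, rfl⟩
        rw [← hL]
        exact hu
    rw [h1, he]
    have h2 : range (fun i => L (v i)) = L '' range v := by
      rw [← range_comp]
      rfl
    rw [h2]
    exact L.toLinearMap.image_convexHull (range v)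

/-- **Q2 of P248, with its equality case, from the full statement of P254 in the form:
sharp slicing inequality for the nice measures, and the equality case for bodies** -/
theorem mahlerFor (hNice : Vale.Agent.P254.X.Loss.NiceDDL 0 (n + 1))
    (hEq : 1 ≤ n → ∀ K S : Set (Fin n → ℝ), Vale.Agent.P254.IsConvexBody K →
      Vale.Agent.P254.IsSimplex S → Vale.Agent.P254.isoConst K = Vale.Agent.P254.isoConst S →
      Vale.Agent.P254.IsSimplex K)
    {K : Set (E n)} (hK : IsConvexBody K) : H432.MahlerFor K := by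
  have hineq : ENNReal.ofReal (simplexVal n) ≤ volumeProduct K := by
    have h1 := NS.T10.volumeProduct_ge
      (fun _ hK _ hz => NS.T10.body_of (NS.Asm541.stmtMain_of NS.T2.stmtLoss) NS.T9.stmtCone
        hNice hK hz) hK
    have e : Real.exp (-(2 * (0 : ℝ) * ((n : ℝ) + 1))) = 1 := by simp
    rw [e, one_mul] at h1
    exact h1
  refine ⟨hineq, fun he => ?_, fun hs => hs.volumeProduct_eq⟩
  rcases Nat.eq_zero_or_pos n with rfl | hn
  · have hne : K.Nonempty := hK.2.2.mono interior_subset
    have hu : K = univ := by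
      obtain ⟨x, hx⟩ := hne
      ext y
      rw [Subsingleton.elim y x]
      exact ⟨fun _ => mem_univ _, fun _ => hx⟩
    rw [hu]
    exact H432.isSimplex_point
  · have hb := co_body hK
    obtain ⟨z, hz, hzm⟩ := exists_santalo hb.2.1 hb.1 hb.2.2
    have hvp : volumeProduct K = volume (co K) * volume (Vale.Agent.P248.polarP (co K) z) := by
      rw [volumeProduct_eq_vp K 0 (sb n)]
      refine le_antisymm (iInf₂_le z hz) (le_iInf₂ fun w hw => ?_)
      exact mul_le_mul_right (hzm w hw) _
    have hval : (volume (co K)).toReal * (volume (NS.polarP (co K) z)).toReal =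
        ((n : ℝ) + 1) ^ (n + 1) / (n.factorial : ℝ) ^ 2 := by
      rw [polarP_eq, ← ENNReal.toReal_mul, ← hvp, he, ENNReal.toReal_ofReal (simplexVal_pos n).le]
      rfl
    refine simplex_of_co (hEq hn (co K) (Vale.Agent.P254.stdS n) hb
      Vale.Agent.P254.FV.isSimplex_stdS ?_)
    exact isoConst_eq_of_eq hNice hb Vale.Agent.P254.FV.isSimplex_stdS hz hval

end Vale.Agent.P248.H656
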