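import Vale.Agent.P248.Bdl.B2

/-!
P248 (helper656): the equality case of the comparison theorem for cones.  If the sharp inequality
`log det Cov ≤ 2 log Z` holds in dimension `N` (`NiceDDL 0 N`) and the volume product inequality
for the cone `C` is an equality at `(x, y)`, then `det Cov(C, y) = Z(C, y)²`.
-/

open MeasureTheory Set Matrix Filter Topology

namespace Vale.Agent.P248.H656

open Vale.Agent.P248.NS Vale.Agent.P248.Cmp
open Vale.Agent.P254.R304 (covF limDens cone)

variable {N : ℕ}

/-- the main inequality for cones without loss -/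
theorem main_sharp (hN : 0 < N) (hNice : Vale.Agent.P254.X.Loss.NiceDDL 0 N)
    {C : Set (Fin N → ℝ)} (hC : CC C) {x y : Fin N → ℝ} (hx : Pos (dual C) x) (hy : Pos C y) :
    (N : ℝ) ^ N ≤ Z C y * Z (dual C) x * (x ⬝ᵥ y) ^ N := by
  have h := Asm541.stmtMain_of T2.stmtLoss 0 N hN hNice C hC x y hx hy
  simpa using h

/-- **equality case**: at an equality point the cone measure satisfies `det Cov = Z²` -/
theorem det_eq_of_eq (hN : 0 < N) (hNice : Vale.Agent.P254.X.Loss.NiceDDL 0 N)
    {C : Set (Fin N → ℝ)} (hC : CC C) {x y : Fin N → ℝ} (hx : Pos (dual C) x) (hy : Pos C y)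
    (heq : Z C y * Z (dual C) x * (x ⬝ᵥ y) ^ N = (N : ℝ) ^ N) :
    (cov C y).det = Z C y ^ 2 := by
  have hD := T1.stmtDual
  obtain ⟨hCD, h2, h3⟩ := hD N C hC
  have hNr : (0 : ℝ) < N := by exact_mod_cast hN
  have hp : ∀ x, Pos (dual C) x → ∀ y, Pos C y → 0 < x ⬝ᵥ y := fun x hx y hy =>
    T8.pairing_pos hN hC hD hx hy
  -- normalise `x`
  have hp0 := hp x hx y hy
  set s : ℝ := N / (x ⬝ᵥ y) with hs
  have hs0 : 0 < s := div_pos hNr hp0
  set x' : Fin N → ℝ := s • x with hx'd
  have hx' : Pos (dual C) x' := Asm541.pos_smul hx hs0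
  have hxy : x' ⬝ᵥ y = N := by
    rw [hx'd, smul_dotProduct, smul_eq_mul, hs]
    field_simp
  have hZ' : Z (dual C) x' = (s ^ N)⁻¹ * Z (dual C) x := (T2a.stmtScale N _ hCD x hx).2 s hs0
  have hprod : Z C y * Z (dual C) x' = 1 := by
    have h4 : Z C y * Z (dual C) x = s ^ N := by
      rw [hs, div_pow, eq_div_iff (pow_pos hp0 _).ne']
      exact heq
    rw [hZ', ← mul_assoc, mul_comm (Z C y), mul_assoc, h4, inv_mul_cancel₀ (pow_pos hs0 _).ne']
  have hZy := T2a.Z_pos hC hy
  have hZx := T2a.Z_pos hCD hx'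
  -- the pair is a minimum point
  have hmin : ∀ a ∈ {x | Pos (dual C) x}, ∀ b ∈ {y | Pos C y},
      Fe (fun y => Real.log (Z C y)) (fun x => Real.log (Z (dual C) x)) x' y 0 x' y ≤
      Fe (fun y => Real.log (Z C y)) (fun x => Real.log (Z (dual C) x)) x' y 0 a b := by
    intro a ha b hb
    have h5 := main_sharp hN hNice hC ha hb
    have h6 := T2a.Z_pos hC hb
    have h7 := T2a.Z_pos hCD ha
    have h8 := hp a ha b hb
    have h9 := Real.log_le_log (pow_pos hNr _) h5
    rw [Real.log_mul (by positivity) (by positivity), Real.log_mul h6.ne' h7.ne', Real.log_pow,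
      Real.log_pow] at h9
    have h10 : Real.log (Z C y) + Real.log (Z (dual C) x') = 0 := by
      rw [← Real.log_mul hZy.ne' hZx.ne', hprod, Real.log_one]
    simp only [Fe, zero_mul, add_zero]
    rw [hxy, h10]
    linarith
  have hdet := one_le_det (T8.cov_posDef hC hy) (T8.cov_posDef hCD hx') (c := 1) one_pos
    (fun a b => by
      have := second_var (Asm541.isOpen_pos (dual C)) (Asm541.isOpen_pos C)
        (fun x hx y hy => hp x hx y hy) hx' hy hx' hy hN hxy le_rfl hmin
        (Asm541.sd hC hy b) (Asm541.sd hCD hx' a)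
      simpa using this)
  rw [one_pow, one_mul] at hdet
  have hle : ∀ {V : Set (Fin N → ℝ)}, CC V → ∀ y, Pos V y → (cov V y).det ≤ Z V y ^ 2 := by
    intro V hV y hy
    have h := T2.stmtLoss 0 N hNice V hV y hy
    have hdp := (T8.cov_posDef hV hy).det_pos
    rw [zero_mul, sub_zero] at h
    have hz := T2a.Z_pos hV hy
    rw [← Real.log_le_log_iff hdp (by positivity), Real.log_pow]
    push_cast
    linarith
  have h11 := hle hC y hy
  have h12 := hle hCD x' hx'
  have h13 := (T8.cov_posDef hC hy).det_pos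
  have h14 := (T8.cov_posDef hCD hx').det_pos
  refine le_antisymm h11 ?_
  by_contra hlt
  rw [not_le] at hlt
  have h15 : (cov C y).det * (cov (dual C) x').det < Z C y ^ 2 * Z (dual C) x' ^ 2 :=
    lt_of_lt_of_le (mul_lt_mul_of_pos_right hlt h14) (mul_le_mul_of_nonneg_left h12 (sq_nonneg _))
  rw [← mul_pow, hprod, one_pow] at h15
  linarith

end Vale.Agent.P248.H656
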